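import Vale.Agent.P221X.Base.Spec

/-!
# P221X: row DEP (depths)
-/

set_option linter.all false

noncomputable section

namespace Vale.Agent.P221X

open PowerSeries KK

namespace DEP

variable {p : ℕ} {F : Type} [Field F]

theorem alg_ge {f : PowerSeries F} {n : ℕ} :
    algebraMap (PowerSeries F) (KK F) f ∈ ge (n : ℤ) ↔ X ^ n ∣ f := by
  rw [X_pow_dvd_iff]
  refine ⟨fun h m hm => (cf_algebraMap f m).symm.trans (h m (by exact_mod_cast hm)),
    fun h m hm => ?_⟩
  rcases lt_or_ge m 0 with q | q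
  · exact cf_algebraMap_neg f q
  · lift m to ℕ using q
    rw [cf_algebraMap]
    exact h m (by exact_mod_cast hm)

theorem exists_ps {m : ℤ} {z : KK F} (hz : z ∈ ge m) :
    ∃ f : PowerSeries F, z = uz m * algebraMap (PowerSeries F) (KK F) f :=
  ⟨PowerSeries.mk fun i => cf (i + m) z, KK.ext fun n => by
    obtain ⟨k, rfl⟩ : ∃ k, n = k + m := ⟨n - m, by ring⟩
    rw [cf_uz_mul]
    rcases lt_or_ge k 0 with q | q
    · rw [cf_algebraMap_neg _ q]
      exact hz _ (by omega)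
    · lift k to ℕ using q
      rw [cf_algebraMap, coeff_mk]⟩

theorem uz_neg (n : ℤ) : (uz n : KK F) * uz (-n) = 1 := by rw [← uz_add, add_neg_cancel, uz_zero]

theorem uz_ne (n : ℤ) : (uz n : KK F) ≠ 0 := left_ne_zero_of_mul_eq_one (uz_neg n)

theorem uz_zpow (k : ℤ) : (uz k : KK F) = uz 1 ^ k := by
  induction k using Int.induction_on with
  | zero => simp
  | succ k ih => rw [uz_add, ih, zpow_add_one₀ (uz_ne 1)]
  | pred k ih =>
    rw [zpow_sub_one₀ (uz_ne 1), ← ih, eq_mul_inv_iff_mul_eq₀ (uz_ne 1), ← uz_add, sub_add_cancel]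

theorem int_ge (n : ℤ) : (n : KK F) ∈ ge 0 :=
  map_intCast (algebraMap (PowerSeries F) (KK F)) n ▸ algebraMap_mem_ge _

theorem mul_ge {m : ℤ} {f g : KK F} (hf : f ∈ ge m) (hg : g ∈ ge 0) : f * g ∈ ge m := by
  simpa using mul_mem_ge hf hg

theorem pow_ge {t : KK F} {n : ℤ} (h : t ∈ ge n) (M : ℕ) : t ^ M ∈ ge (n * M) := by
  induction M with
  | zero => simpa using uz_mem_ge (F := F) 0
  | succ M ih =>
    rw [pow_succ, Nat.cast_succ, mul_add, mul_one]
    exact mul_mem_ge ih h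

theorem inv_ge {t : KK F} (h : t ∈ ge 1) : 1 + t ≠ 0 ∧ (1 + t)⁻¹ ∈ ge 0 := by
  obtain ⟨f, rfl⟩ := exists_ps h
  obtain ⟨g, hg⟩ := (isUnit_iff_constantCoeff.2 (by simp : IsUnit (constantCoeff (1 + X * f))
    )).exists_right_inv
  have := congrArg (algebraMap (PowerSeries F) (KK F)) hg
  rw [map_mul, map_add, map_one, map_mul, algebraMap_X] at this
  exact ⟨left_ne_zero_of_mul_eq_one this, inv_eq_of_mul_eq_one_right this ▸ algebraMap_mem_ge g⟩

/-- the binomial series -/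
theorem bin {t : KK F} (h : t ∈ ge 1) (M : ℕ) (k : ℤ) : ∃ w ∈ ge 0, (1 + t) ^ k =
    ∑ i ∈ Finset.range (M + 1), t ^ i * (Ring.choose k i : ℤ) + t ^ (M + 1) * w := by
  have st : ∀ (M : ℕ) (k : ℤ), (1 + t) * ∑ i ∈ Finset.range (M + 1), t ^ i * (Ring.choose k i : ℤ) =
      ∑ i ∈ Finset.range (M + 1), t ^ i * (Ring.choose (k + 1) i : ℤ) +
        t ^ (M + 1) * (Ring.choose k M : ℤ) := fun M k => by
    induction M with
    | zero => simp [Ring.choose_zero_right]
    | succ M ih =>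
      rw [Finset.sum_range_succ, mul_add, ih, Finset.sum_range_succ _ (M + 1),
        Ring.choose_succ_succ]
      push_cast
      ring
  obtain ⟨h0, h1⟩ := inv_ge h
  induction k using Int.induction_on with
  | zero => exact ⟨0, zero_mem _, by simp [Finset.sum_range_succ', Ring.choose_zero_right]⟩
  | succ k ih =>
    obtain ⟨w, hw, e⟩ := ih
    refine ⟨_, add_mem (int_ge (Ring.choose (k : ℤ) M)) (mul_ge hw (add_mem (uz_mem_ge 0)
      (ge_mono zero_le_one h))), ?_⟩
    rw [zpow_add_one₀ h0, e, uz_zero]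
    linear_combination st M k
  | pred k ih =>
    obtain ⟨w, hw, e⟩ := ih
    refine ⟨_, mul_ge (sub_mem hw (int_ge (Ring.choose (-k - 1 : ℤ) M))) h1, ?_⟩
    have := st M (-k - 1)
    rw [sub_add_cancel] at this
    rw [zpow_sub_one₀ h0, e, mul_inv_eq_iff_eq_mul₀ h0, add_mul, mul_assoc,
      inv_mul_cancel_right₀ h0]
    linear_combination -this

theorem split {m : ℤ} {z : KK F} (hz : z ∈ ge m) : z - cf m z • uz m ∈ ge (m + 1) := fun k hk => by
  rw [map_sub, map_smul, cf_uz]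
  split_ifs with q
  · simp [q]
  · simp [hz k (by omega)]

/-- it suffices to test the gain on monomials -/
theorem gain_of {T : Module.End F (KK F)} {n : ℤ} (h0 : Gain T 0)
    (h : ∀ k, T (uz k) ∈ ge (k + n)) : Gain T n := fun m z hz => by
  have key : ∀ (j : ℕ) (k : ℤ), ∀ z ∈ ge k, m ≤ k → m + n ≤ k + j → T z ∈ ge (m + n) := fun j => by
    induction j with
    | zero => exact fun k z hz _ q => ge_mono (by simpa using q) (h0 k z hz)
    | succ j ih =>
      intro k z hz q q'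
      have := add_mem (ih _ _ (split hz) (by omega) (by push_cast at q'; omega))
        (Submodule.smul_mem _ (cf k z) (ge_mono (by omega : m + n ≤ k + n) (h k)))
      rwa [← map_smul, ← map_add, sub_add_cancel] at this
  exact key n.toNat m z hz le_rfl (by omega)

theorem gain_pow {T : Module.End F (KK F)} {n : ℤ} (h : Gain T n) (j : ℕ) : Gain (T ^ j) (j * n) := by
  induction j with
  | zero => exact fun m z hz => by simpa using hz
  | succ j ih =>
    intro m z hz
    rw [pow_succ', Nat.cast_succ, add_mul, one_mul, ← add_assoc]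
    exact h _ _ (ih m z hz)

theorem eul_uz (i : ℕ) (k : ℤ) : 
    eul i (uz k : KK F) = ((Ring.choose k i : ℤ) : KK F) * uz k := by
  rw [← zsmul_eq_mul, ← Int.cast_smul_eq_zsmul F]
  refine KK.ext fun n => ?_
  rw [cf_eul, map_smul, cf_uz]
  split_ifs with q <;> simp [q]

theorem eul_ge (i : ℕ) {m : ℤ} {z : KK F} (hz : z ∈ ge m) : eul i z ∈ ge m := fun k hk => by
  rw [cf_eul, hz k hk, mul_zero]

/-- the index in terms of two generators -/
theorem relIndex {G : Type} [Group G] {N H : Subgroup G} [N.Normal] [hp : Fact p.Prime] {α β : G}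
    (hα : α ∈ H) (hβ : β ∈ H) (h1 : α ^ p ∈ N) (h2 : β ^ p ∈ N)
    (sp : ∀ a ∈ H, ∃ i j : ℕ, (α ^ i * β ^ j)⁻¹ * a ∈ N)
    (ind : ∀ i j : ℤ, α ^ i * β ^ j ∈ N → (p : ℤ) ∣ i ∧ (p : ℤ) ∣ j) : N.relIndex H = p ^ 2 := by
  let π := QuotientGroup.mk' N
  have k : ∀ a, π a = 1 ↔ a ∈ N := fun a => QuotientGroup.eq_one_iff a
  rw [← QuotientGroup.ker_mk' N, Subgroup.relIndex_ker, ← Nat.card_congr (Equiv.ofBijective
    (fun x : Fin p × Fin p => (⟨π (α ^ (x.1 : ℕ) * β ^ (x.2 : ℕ)),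
      _, mul_mem (pow_mem hα _) (pow_mem hβ _), rfl⟩ : H.map π)) ⟨?_, ?_⟩)]
  · simp [sq]
  · intro x y e
    have e' := congrArg Subtype.val e
    obtain ⟨a, b⟩ := ind (-(y.1 : ℕ) + (x.1 : ℕ)) ((x.2 : ℕ) - (y.2 : ℕ)) ((k _).1 (by
      simp only [map_mul, map_pow] at e'
      rw [map_mul, map_zpow, map_zpow, zpow_add, zpow_sub, zpow_neg, zpow_natCast, zpow_natCast,
        zpow_natCast, zpow_natCast, mul_assoc, ← mul_assoc (π α ^ (x.1 : ℕ)), e']
      group))
    have a' := Int.eq_zero_of_abs_lt_dvd a (abs_lt.2 ⟨by omega, by omega⟩)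
    have b' := Int.eq_zero_of_abs_lt_dvd b (abs_lt.2 ⟨by omega, by omega⟩)
    exact Prod.ext (Fin.ext (by omega)) (Fin.ext (by omega))
  · rintro ⟨_, a, ha, rfl⟩
    obtain ⟨i, j, e⟩ := sp a ha
    refine ⟨(⟨i % p, Nat.mod_lt _ hp.1.pos⟩, ⟨j % p, Nat.mod_lt _ hp.1.pos⟩), Subtype.ext ?_⟩
    have e' := (k _).2 e
    rw [map_mul, map_inv, inv_mul_eq_one] at e'
    simp only [← e', map_mul, map_pow]
    rw [← pow_eq_pow_mod i (by rw [← map_pow, k]; exact h1),
      ← pow_eq_pow_mod j (by rw [← map_pow, k]; exact h2)]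

variable (D : GD p F)

/-- `a(u) / u - 1` -/
def tt (a : D.G) : KK F := D.actK a (uz 1) * uz (-1) - 1

/-- `a - 1` -/
abbrev TT (a : D.G) : Module.End F (KK F) := (D.actK a).toLinearMap - 1

variable {D} {a b : D.G} {n : ℕ}

theorem TT_apply (z : KK F) : TT D a z = D.actK a z - z := rfl

theorem dep_iff : Dep (D.act a) n ↔ TT D a (uz 1) ∈ ge ((n : ℤ) + 1) := by
  rw [Dep, ← alg_ge, map_sub, ← D.actK_alg, algebraMap_X]
  rfl

theorem tt_ge (h : Dep (D.act a) n) : tt D a ∈ ge (n : ℤ) := by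
  have := mul_mem_ge (dep_iff.1 h) (uz_mem_ge (-1))
  rwa [TT_apply, sub_mul, uz_neg, add_neg_cancel_right] at this

theorem tt_one (a : D.G) : tt D a ∈ ge 1 := tt_ge (D.dep_one a)

theorem act_uz (a : D.G) (k : ℤ) : D.actK a (uz k) = (1 + tt D a) ^ k * uz k := by
  rw [uz_zpow k, map_zpow₀, ← mul_zpow, tt, add_sub_cancel, mul_assoc, mul_comm (uz (-1)), uz_neg,
    mul_one]

theorem TT_uz (h : Dep (D.act a) n) (k : ℤ) : TT D a (uz k) ∈ ge (k + n) := by
  obtain ⟨w, hw, e⟩ := bin (tt_one a) 0 k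
  convert mul_mem_ge (uz_mem_ge k) (mul_ge (tt_ge h) hw) using 1
  rw [TT_apply, act_uz, e]
  simp [Ring.choose_zero_right]
  ring

theorem mono (a : D.G) {m n : ℕ} (h : m ≤ n) (h' : Dep (D.act a) n) : Dep (D.act a) m :=
  (pow_dvd_pow _ (Nat.succ_le_succ h)).trans h'

theorem pres (a : D.G) {m : ℤ} {z : KK F} (hz : z ∈ ge m) : D.actK a z ∈ ge m := by
  obtain ⟨f, rfl⟩ := exists_ps hz
  have := add_mem (TT_uz (mono a zero_le_one (D.dep_one a)) m) (by simpa using uz_mem_ge m)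
  rw [map_mul, D.actK_alg]
  exact mul_ge (by simpa [TT_apply] using this) (algebraMap_mem_ge _)

theorem gain (h : Dep (D.act a) n) : Gain (TT D a) n :=
  gain_of (fun m z hz => by simpa [TT_apply] using sub_mem (pres a hz) hz) (TT_uz h)

theorem mul (h : Dep (D.act a) n) (h' : Dep (D.act b) n) : Dep (D.act (a * b)) n := by
  rw [dep_iff] at h h' ⊢
  simpa [TT_apply] using add_mem (pres a h') h

theorem conj (b : D.G) (h : Dep (D.act a) n) : Dep (D.act (b * a * b⁻¹)) n := by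
  have := pres b (gain h _ _ (pres b⁻¹ (uz_mem_ge 1)))
  rw [dep_iff, add_comm]
  convert this using 1
  rw [TT_apply, TT_apply, map_sub, ← AlgEquiv.mul_apply _ (D.actK b⁻¹), ← AlgEquiv.mul_apply,
    ← AlgEquiv.mul_apply, ← map_mul, ← map_mul, ← map_mul, mul_inv_cancel, map_one, mul_assoc]
  rfl

theorem inv (h : Dep (D.act a) n) : Dep (D.act a⁻¹) n := by
  rw [dep_iff] at h ⊢
  convert neg_mem (pres a⁻¹ h) using 1
  rw [TT_apply, TT_apply, map_sub, ← AlgEquiv.mul_apply, ← map_mul, inv_mul_cancel, map_one,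
    neg_sub]
  rfl

/-- the elements of depth at least `n` -/
def dp (D : GD p F) (n : ℕ) : Subgroup D.G where
  carrier := {a | Dep (D.act a) n}
  one_mem' := by simp [Dep]
  mul_mem' := mul
  inv_mem' := inv

theorem expand (a : D.G) (z : KK F) (m : ℤ) (M : ℕ) (hz : z ∈ ge m) :
    D.actK a z - ∑ i ∈ Finset.range M, tt D a ^ i * eul i z ∈ ge (m + M) := by
  rcases M with _ | M
  · simpa using pres a hz
  have := gain_of (T := (D.actK a).toLinearMap - ∑ i ∈ Finset.range (M + 1),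
    LinearMap.mulLeft F (tt D a ^ i) ∘ₗ eul i) (n := (M + 1 : ℕ)) (fun m z hz => ?_) (fun k => ?_)
    m z hz
  · simpa [LinearMap.sum_apply] using this
  · simpa [LinearMap.sum_apply, mul_comm] using sub_mem (pres a hz) (sum_mem fun i _ =>
      mul_ge (eul_ge i hz) (by simpa using pow_ge (ge_mono zero_le_one (tt_one a)) i))
  · obtain ⟨w, hw, e⟩ := bin (tt_one a) M k
    have := mul_mem_ge (uz_mem_ge k) (mul_ge (pow_ge (tt_one a) (M + 1)) hw)
    rw [one_mul] at this
    convert this using 1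
    simp only [LinearMap.sub_apply, LinearMap.sum_apply, LinearMap.comp_apply, eul_uz,
      LinearMap.mulLeft_apply, AlgEquiv.toLinearMap_apply, act_uz, e, ← mul_assoc,
      ← Finset.sum_mul]
    ring

theorem rotK_alg (f : PowerSeries F) : D.rotK (algebraMap (PowerSeries F) (KK F) f) =
    algebraMap (PowerSeries F) (KK F) (D.rot f) := KK.ext fun n => by
  rw [D.rotK_cf]
  rcases lt_or_ge n 0 with q | q
  · rw [cf_algebraMap_neg _ q, cf_algebraMap_neg _ q, mul_zero]
  · lift n to ℕ using q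
    rw [cf_algebraMap, cf_algebraMap, D.rot_coeff, zpow_natCast]

theorem actK_cj (a : D.G) (z : KK F) : D.actK (D.cj a) (D.rotK z) = D.rotK (D.actK a z) := by
  obtain ⟨f, g, -, rfl⟩ := IsFractionRing.div_surjective (A := PowerSeries F) z
  simp only [map_div₀, rotK_alg, D.actK_alg, D.act_cj]

theorem inv_iff {z : KK F} : z ∈ KK.inv (p + 1) ↔ D.rotK z = z := by
  refine ⟨fun h => KK.ext fun n => ?_, fun h n hn => ?_⟩
  · rw [D.rotK_cf]
    by_cases q : ((p + 1 : ℕ) : ℤ) ∣ n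
    · rw [(D.ζ_prim.zpow_eq_one_iff_dvd n).2 q, one_mul]
    · rw [h n q, mul_zero]
  · have := D.rotK_cf z n
    rw [h] at this
    exact by_contra fun q => hn ((D.ζ_prim.zpow_eq_one_iff_dvd n).1
      ((mul_eq_right₀ q).1 this.symm))

theorem uz_inv {d : ℕ} {k : ℤ} (h : (d : ℤ) ∣ k) : (uz k : KK F) ∈ KK.inv d := fun m hm => by
  rw [cf_uz, if_neg fun e : m = k => hm (e ▸ h)]

theorem inv_step {d : ℕ} {k m : ℤ} {z : KK F} (h : z ∈ KK.inv d) (h' : z ∈ ge m) (hm : d * k < m) :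
    z ∈ ge (d * (k + 1)) := fun n hn => by
  by_cases q : (d : ℤ) ∣ n
  · obtain ⟨c, rfl⟩ := q
    exact h' _ (lt_of_le_of_lt (mul_le_mul_of_nonneg_left (Int.lt_add_one_iff.1
      (lt_of_mul_lt_mul_left hn d.cast_nonneg)) d.cast_nonneg) hm)
  · exact h n q

theorem g_inv {z : KK F} (h : z ∈ KK.inv (p + 1)) : D.actK D.g z ∈ KK.inv (p + 1) := by
  rw [inv_iff (D := D)] at h ⊢
  rw [← actK_cj, D.cj_g, h]

theorem tt_inv : tt D D.g ∈ KK.inv (p + 1) := by
  have := actK_cj D.g (uz 1)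
  have e : ∀ k : ℤ, D.rotK (uz k) = D.ζ ^ k • uz k := fun k => KK.ext fun n => by
    rw [D.rotK_cf, map_smul, cf_uz]
    split_ifs with q <;> simp [q]
  rw [inv_iff (D := D), tt, map_sub, map_mul, map_one, ← this, D.cj_g, e, e, map_smul,
    smul_mul_smul_comm, ← zpow_add₀ (D.ζ_prim.ne_zero p.succ_ne_zero), add_neg_cancel, zpow_zero,
    one_smul]

theorem dep_of (h : tt D a ∈ ge (n : ℤ)) : Dep (D.act a) n := by
  have := mul_mem_ge h (uz_mem_ge 1)
  rwa [tt, sub_mul, mul_assoc, mul_comm (uz (-1)), uz_neg, mul_one, one_mul, ← TT_apply,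
    ← dep_iff] at this

theorem dep_g : Dep (D.act D.g) (p + 1) :=
  dep_of (by simpa using inv_step (k := 0) tt_inv (tt_one D.g) (by simp))

variable [hp : Fact p.Prime]

theorem odd_mem (a : D.G) (l : ℕ) : a ^ p ^ l ∈ D.Gf (2 * l + 1) := by
  induction l with
  | zero => exact D.Gf_one _
  | succ l ih =>
    rw [pow_succ, pow_mul]
    exact D.Gf_pow (by omega) ih

theorem even_mem (h : a ∈ D.Gf 2) (l : ℕ) : a ^ p ^ l ∈ D.Gf (2 * l + 2) := by
  induction l with
  | zero => simpa using h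
  | succ l ih =>
    rw [pow_succ, pow_mul]
    exact D.Gf_pow (by omega) ih

theorem index (D : GD p F) (l : ℕ) : (D.Gf (l + 1)).index = p ^ (2 * l) := by
  induction l with
  | zero => rw [(Subgroup.eq_top_iff' _).2 D.Gf_one, Subgroup.index_top, mul_zero, pow_zero]
  | succ l ih =>
    haveI := D.Gf_normal (l + 1 + 1)
    rw [← Subgroup.relIndex_mul_index (D.Gf_anti (Nat.le_succ (l + 1))), ih, mul_add, pow_add,
      mul_comm (p ^ _)]
    congr 1
    obtain ⟨j, rfl | rfl⟩ := Nat.even_or_odd' l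
    · have q := fun a => D.Gf_anti (Nat.le_succ _) (D.Gf_pow (by omega) (odd_mem a j))
      exact relIndex (odd_mem _ j) (odd_mem _ j) (q _) (q _) (D.odd_span j) (D.odd_ind j)
    · have q := fun a h => D.Gf_anti (Nat.le_succ _) (D.Gf_pow (by omega) (even_mem (a := a) h j))
      exact relIndex (even_mem D.g_mem j) (even_mem D.ψ_mem j) (q _ D.g_mem) (q _ D.ψ_mem)
        (D.even_span j) (D.even_ind j)

theorem le_dp {l₀ : ℕ} (h1 : ∀ l ≥ l₀, ∀ a, a ^ p ^ l ∈ dp D n) :
    D.Gf (2 * l₀ + 1) ≤ dp D n := by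
  obtain ⟨N, hN⟩ := D.cont n
  have : ∀ j l, l₀ ≤ l → N ≤ l + j → D.Gf (2 * l + 1) ≤ dp D n := fun j => by
    induction j with
    | zero => exact fun l _ q a ha => hN a (D.Gf_anti (by omega) ha)
    | succ j ih =>
      intro l q q' a ha
      obtain ⟨i, i', e⟩ := D.odd_span l a ha
      obtain ⟨k, k', e'⟩ := D.even_span l _ e
      have w := fun a b i j => mul_mem (pow_mem (h1 l q a) i) (pow_mem (h1 l q b) j)
      exact (mul_mem_cancel_left (inv_mem (w _ _ _ _))).1
        ((mul_mem_cancel_left (inv_mem (w _ _ _ _))).1 (ih (l + 1) (by omega) (by omega) e'))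
  exact this N l₀ le_rfl (by omega)

variable [CharP F p]

theorem TT_pow (a : D.G) : TT D (a ^ p) = TT D a ^ p := by
  haveI := charP_of_injective_algebraMap (algebraMap F (Module.End F (KK F))).injective p
  rw [TT, TT, sub_pow_char_of_commute _ (Commute.one_right _), one_pow, map_pow,
    AlgEquiv.pow_toLinearMap]

theorem pow (h : Dep (D.act a) n) : Dep (D.act (a ^ p)) (p * n) := by
  rw [dep_iff, TT_pow, add_comm, Nat.cast_mul]
  exact gain_pow (gain h) p _ _ (uz_mem_ge 1)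

theorem pow_pow (h : Dep (D.act a) n) (l : ℕ) : Dep (D.act (a ^ p ^ l)) (n * p ^ l) := by
  induction l with
  | zero => simpa using h
  | succ l ih =>
    rw [pow_succ, pow_mul, ← mul_assoc, mul_comm _ p]
    exact pow ih

theorem pow_one (a : D.G) : Dep (D.act (a ^ p)) (p + 1) := by
  haveI := charP_of_injective_algebraMap (algebraMap F (KK F)).injective p
  have h2 := hp.1.two_le
  have h := gain_pow (gain (D.dep_one a)) (p - 1) _ _ (uz_mem_ge 1)
  rw [show (1 : ℤ) + (p - 1 : ℕ) * (1 : ℕ) = p by omega] at h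
  have h1 : TT D a (uz p) ∈ ge ((p : ℤ) + 1 + (1 : ℕ)) := by
    rw [uz_zpow, zpow_natCast, TT_apply, map_pow, ← sub_pow_char]
    exact ge_mono (by push_cast; omega) (pow_ge (dep_iff.1 (D.dep_one a)) p)
  have := add_mem (gain (D.dep_one a) _ _ (split h)) 
    (Submodule.smul_mem _ (cf p ((TT D a ^ (p - 1)) (uz 1))) h1)
  rw [← map_smul, ← map_add, sub_add_cancel, ← Module.End.mul_apply, ← pow_succ',
    Nat.sub_add_cancel hp.1.pos, ← TT_pow] at this
  exact dep_iff.2 this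

theorem odd (l : ℕ) : D.Gf (2 * l + 1) ≤ dp D (p ^ l) := le_dp fun j hj a =>
  mono _ (by rw [one_mul]; exact Nat.pow_le_pow_right hp.1.pos hj) (pow_pow (D.dep_one a) j)

theorem even (l : ℕ) : D.Gf (2 * l + 2) ≤ dp D ((p + 1) * p ^ l) := fun a ha => by
  obtain ⟨i, j, e⟩ := D.even_span l a ha
  refine (mul_mem_cancel_left (inv_mem (mul_mem (pow_mem (pow_pow dep_g l) i)
    (pow_mem (pow_mem (show D.ψ ∈ dp D _ by simp [dp, Dep, D.act_ψ]) _) j)))).1
    (le_dp (l₀ := l + 1) (fun k hk a => ?_) e)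
  obtain ⟨k, rfl⟩ := Nat.exists_eq_add_one.2 (Nat.zero_lt_of_lt hk)
  rw [pow_succ', pow_mul]
  exact mono _ (Nat.mul_le_mul_left _ (Nat.pow_le_pow_right hp.1.pos (by omega)))
    (pow_pow (pow_one a) k)

theorem g_lead : ∃ c : F, c ≠ 0 ∧
    ∀ k : ℤ, Lead p (D.actK D.g (xp p k) - xp p k) (k - 1) (k * c) := by
  have t1 := tt_ge (dep_g (D := D))
  have t2 := inv_step (k := 1) (sub_mem tt_inv (Submodule.smul_mem _ _ (uz_inv dvd_rfl)))
    (split t1) (by omega)
  refine ⟨-cf (p + 1 : ℕ) (tt D D.g), neg_ne_zero.2 fun z => ?_, fun k => ?_⟩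
  · refine D.keat_even 0 D.g D.g_mem (fun j hj => hp.1.one_lt.ne' ?_) (dep_of ?_)
    · rw [(show Commute D.ψ D.g from D.ψ_comm _).zpow_left j] at hj
      exact_mod_cast Int.eq_one_of_dvd_one p.cast_nonneg (D.even_ind 0 1 j (by simpa using hj)).1
    · have := split t1
      rw [z, zero_smul, sub_zero] at this
      simpa [lev0, add_assoc, one_add_one_eq_two] using this
  · have i : (xp p k : KK F) ∈ KK.inv (p + 1) := uz_inv ((dvd_refl _).neg_right.mul_right k)
    refine ⟨sub_mem (g_inv i) i, ?_⟩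
    obtain ⟨w, hw, e⟩ := bin (tt_one D.g) 1 (-((p + 1 : ℕ) : ℤ) * k)
    have h1 := mul_mem_ge (uz_mem_ge (-((p + 1 : ℕ) : ℤ) * k)) (add_mem (mul_ge t2
      (int_ge (-((p + 1 : ℕ) : ℤ) * k))) (mul_ge (pow_ge t1 2) hw))
    haveI := charP_of_injective_algebraMap (algebraMap F (KK F)).injective p
    rw [Ox, show -((p + 1 : ℕ) : ℤ) * (k - 1 - 1) =
      -((p + 1 : ℕ) : ℤ) * k + (p + 1 : ℕ) * (1 + 1) by ring]
    convert h1 using 1
    rw [xp, xp, act_uz, e, show -((p + 1 : ℕ) : ℤ) * (k - 1) =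
      -((p + 1 : ℕ) : ℤ) * k + (p + 1 : ℕ) by ring, uz_add]
    simp [Finset.sum_range_succ, Ring.choose_zero_right, Ring.choose_one_right, Algebra.smul_def]
    ring

theorem g_pow : D.actK (D.g ^ p) (xp p 1) - xp p 1 ∈ Ox p (-(p : ℤ)) := by
  obtain ⟨c, -, h⟩ := g_lead (D := D)
  have := gain_pow (gain (dep_g (D := D))) (p - 1) _ _ (h 1).2
  have e : (TT D D.g ^ (p - 1)) (xp p (1 - 1)) = 0 := by
    obtain ⟨j, hj⟩ := Nat.exists_eq_add_one.2 (Nat.sub_pos_of_lt hp.1.one_lt)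
    rw [hj, pow_succ, Module.End.mul_apply, TT_apply]
    simp [xp]
  rw [map_sub, map_smul, e, smul_zero, sub_zero, ← TT_apply, ← Module.End.mul_apply, ← pow_succ,
    Nat.sub_add_cancel hp.1.pos, ← TT_pow] at this
  refine ge_mono (le_of_eq ?_) this
  rw [Nat.cast_sub hp.1.pos]
  push_cast
  ring

end DEP

open DEP

variable {p : ℕ} {F : Type} [Field F]

/-- **row DEP** -/
theorem rowDEP (D : GD p F) [hp : Fact p.Prime] [CharP F p] : RowDEP D where
  mono := mono
  mul _ _ _ := mul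
  inv _ _ := DEP.inv
  conj _ b _ := conj b
  pow _ _ := DEP.pow
  gain _ _ := gain
  odd l _ h := odd l h
  even l _ h := even l h
  g_lead := g_lead
  g_pow := g_pow
  fin l := by
    haveI : (D.Gf (l + 1)).FiniteIndex := ⟨index D l ▸ pow_ne_zero _ hp.1.ne_zero⟩
    haveI := Subgroup.finiteIndex_of_le (D.Gf_anti (Nat.le_succ l))
    exact Subgroup.finite_quotient_of_finiteIndex
  card := index D
  expand := expand

end Vale.Agent.P221X
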